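import Mathlib

/-!
# Insulated site lemma: assembly on the product space of the ports (P365 T1, ISL step (7))
-/

set_option autoImplicit false
set_option linter.unusedSectionVars false
set_option linter.unusedVariables false
set_option linter.style.header false

open MeasureTheory Finset Function
open scoped ENNReal BigOperators

namespace P365T1.ISL

variable {κ : Type*} [Fintype κ] [DecidableEq κ] {ν : κ → Measure ℝ}
  [∀ k, IsProbabilityMeasure (ν k)]

/-- resampling one coordinate does not change the integral -/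
theorem lintegral_resample (F : (κ → ℝ) → ℝ≥0∞) (hF : Measurable F) (z : κ) :
    ∫⁻ v, F v ∂Measure.pi ν = ∫⁻ v, ∫⁻ t, F (update v z t) ∂ν z ∂Measure.pi ν := by
  refine lintegral_eq_of_lmarginal_eq {z} hF ?_ ?_
  · have h1 := hF.lmarginal ν (s := {z})
    have h2 : (fun v => ∫⁻ t, F (update v z t) ∂ν z) = ∫⋯∫⁻_{z}, F ∂ν := by
      funext v
      rw [lmarginal_singleton]
    rw [h2]
    exact h1
  · funext v
    rw [lmarginal_singleton, lmarginal_singleton]
    simp

/-- **assembly**: off `B` either `f ≤ a g`, or some port `z` is on its peak (`R z`) with the centre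
non-resonant after replacing `V_z` by `-i` (`Q z`, which does not see `V_z`); gain `b` on the
line of `V_z`. -/
theorem isl_assembly {f g : (κ → ℝ) → ℝ≥0∞} (hf : Measurable f) (hg : Measurable g)
    (hfin : ∫⁻ v, f v ∂Measure.pi ν ≠ ⊤) {B : Set (κ → ℝ)} (hBm : MeasurableSet B)
    (hB : ∫⁻ v in B, f v ∂Measure.pi ν ≤ 4⁻¹ * ∫⁻ v, f v ∂Measure.pi ν)
    {R Q : κ → Set (κ → ℝ)} (hR : ∀ z, MeasurableSet (R z)) (hQ : ∀ z, MeasurableSet (Q z))
    (hQi : ∀ z v t, update v z t ∈ Q z ↔ v ∈ Q z) {a b : ℝ≥0∞}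
    (hcover : ∀ v, v ∉ B → f v ≤ a * g v ∨ ∃ z, v ∈ R z ∧ v ∈ Q z)
    (hline : ∀ z v, v ∈ Q z → ∫⁻ t, (R z).indicator f (update v z t) ∂ν z ≤
      b * ∫⁻ t, g (update v z t) ∂ν z) :
    ∫⁻ v, f v ∂Measure.pi ν ≤
      2 * ((a + (Fintype.card κ : ℝ≥0∞) * b) * ∫⁻ v, g v ∂Measure.pi ν) := by
  set P := Measure.pi ν with hP
  -- pointwise bound off B
  have h1 : ∀ v, v ∈ Bᶜ → f v ≤ a * g v + ∑ z, (Q z).indicator ((R z).indicator f) v := by
    intro v hv
    rcases hcover v hv with h | ⟨z, hz1, hz2⟩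
    · exact h.trans le_self_add
    · refine le_trans ?_ le_add_self
      refine le_trans ?_ (Finset.single_le_sum
        (f := fun z => (Q z).indicator ((R z).indicator f) v) (fun _ _ => zero_le)
        (Finset.mem_univ z))
      simp only [Set.indicator_of_mem hz2, Set.indicator_of_mem hz1]
      exact le_rfl
  have h2 : ∫⁻ v in Bᶜ, f v ∂P ≤
      ∫⁻ v, (a * g v + ∑ z, (Q z).indicator ((R z).indicator f) v) ∂P := by
    refine (setLIntegral_mono_ae' hBm.compl (Filter.Eventually.of_forall h1)).trans ?_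
    exact setLIntegral_le_lintegral _ _
  have hind : ∀ z, Measurable fun v => (Q z).indicator ((R z).indicator f) v := fun z =>
    (hf.indicator (hR z)).indicator (hQ z)
  have h3 : ∫⁻ v, (a * g v + ∑ z, (Q z).indicator ((R z).indicator f) v) ∂P =
      a * ∫⁻ v, g v ∂P + ∑ z, ∫⁻ v, (Q z).indicator ((R z).indicator f) v ∂P := by
    rw [lintegral_add_left (hg.const_mul a), lintegral_const_mul _ hg,
      lintegral_finsetSum _ fun z _ => hind z]
  have h4 : ∀ z, ∫⁻ v, (Q z).indicator ((R z).indicator f) v ∂P ≤ b * ∫⁻ v, g v ∂P := by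
    intro z
    rw [hP, lintegral_resample _ (hind z) z]
    have h5 : ∀ v, ∫⁻ t, (Q z).indicator ((R z).indicator f) (update v z t) ∂ν z ≤
        b * ∫⁻ t, g (update v z t) ∂ν z := by
      intro v
      by_cases hv : v ∈ Q z
      · refine le_trans (lintegral_mono fun t => ?_) (hline z v hv)
        rw [Set.indicator_of_mem ((hQi z v t).2 hv)]
      · have h6 : ∀ t, (Q z).indicator ((R z).indicator f) (update v z t) = 0 := by
          intro t
          rw [Set.indicator_of_notMem]
          rw [hQi z v t]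
          exact hv
        simp [h6]
    refine (lintegral_mono h5).trans ?_
    have hmeas : Measurable fun v => ∫⁻ t, g (update v z t) ∂ν z := by
      have h7 := hg.lmarginal ν (s := {z})
      have h8 : (fun v => ∫⁻ t, g (update v z t) ∂ν z) = ∫⋯∫⁻_{z}, g ∂ν := by
        funext v
        rw [lmarginal_singleton]
      rw [h8]
      exact h7
    rw [lintegral_const_mul _ hmeas, ← lintegral_resample _ hg z]
  have h5 : ∫⁻ v, f v ∂P = ∫⁻ v in B, f v ∂P + ∫⁻ v in Bᶜ, f v ∂P :=
    (lintegral_add_compl f hBm).symm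
  have h6 : ∫⁻ v in Bᶜ, f v ∂P ≤
      (a + (Fintype.card κ : ℝ≥0∞) * b) * ∫⁻ v, g v ∂P := by
    refine h2.trans (h3.le.trans ?_)
    have h7 : ∑ z, ∫⁻ v, (Q z).indicator ((R z).indicator f) v ∂P ≤
        (Fintype.card κ : ℝ≥0∞) * b * ∫⁻ v, g v ∂P := by
      refine (Finset.sum_le_sum fun z _ => h4 z).trans ?_
      rw [Finset.sum_const, Finset.card_univ, nsmul_eq_mul, mul_assoc]
    rw [add_mul]
    exact add_le_add le_rfl h7
  set I := ∫⁻ v, f v ∂P with hI
  set J := (a + (Fintype.card κ : ℝ≥0∞) * b) * ∫⁻ v, g v ∂P with hJ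
  have h7 : I ≤ 4⁻¹ * I + J := by
    calc I = _ := h5
      _ ≤ 4⁻¹ * I + J := add_le_add hB h6
  by_cases hJt : J = ⊤
  · rw [hJt]
    simp
  · have hI' : I ≠ ⊤ := hfin
    have e1 : (4⁻¹ * I + J) = ENNReal.ofReal (4⁻¹ * I.toReal + J.toReal) := by
      rw [ENNReal.ofReal_add (by positivity) (by positivity), ENNReal.ofReal_mul (by positivity),
        ENNReal.ofReal_toReal hI', ENNReal.ofReal_toReal hJt]
      congr 2
      rw [ENNReal.ofReal_inv_of_pos (by norm_num)]
      norm_num
    have e2 : I.toReal ≤ 4⁻¹ * I.toReal + J.toReal := by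
      rw [e1] at h7
      exact ENNReal.toReal_le_of_le_ofReal (by positivity) h7
    have e3 : I.toReal ≤ 2 * J.toReal := by
      have : 0 ≤ J.toReal := ENNReal.toReal_nonneg
      linarith
    calc I = ENNReal.ofReal I.toReal := (ENNReal.ofReal_toReal hI').symm
      _ ≤ ENNReal.ofReal (2 * J.toReal) := ENNReal.ofReal_le_ofReal e3
      _ = 2 * J := by
        rw [ENNReal.ofReal_mul (by norm_num), ENNReal.ofReal_toReal hJt]
        norm_num

end P365T1.ISL
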