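import Vale.Agent.P365.T1.WCH2
import Vale.Agent.P365.T1.JBook

/-!
# Peeling: the exceptional events of the crude Harnack inequality live at boundary sites only
(P365 T1, helper229)

`peel_step` : moving one diagonal variable from `-iL` to a real value costs a constant factor of the
determinant, provided some row `n` of the matrix ties this variable to variables which are already
at `-iL`.
-/

set_option autoImplicit false
set_option linter.all false

open MeasureTheory Finset Function Matrix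
open scoped ENNReal NNReal BigOperators

namespace P365T1.MAff

variable {ι : Type*} [Fintype ι] [DecidableEq ι]

/-- determinant as a function of one diagonal variable -/
theorem det_Mz_update (B : Matrix ι ι ℂ) (z : ι → ℂ) (c : ι) (w : ℂ) :
    (Mz B (update z c w)).det = (Mz B z).det + (w - z c) * (Mz B z).adjugate c c := by
  have h1 := (maff_det B).eq_coef z c w
  have h2 := (maff_det B).eq_coef z c (z c)
  rw [update_eq_self] at h2
  rw [coe1_det] at h1 h2
  simp only [smul_eq_mul] at h1 h2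
  rw [h1, h2]
  ring

/-- **One peeling step.** -/
theorem peel_step {B : Matrix ι ι ℂ} (hB : DissB B) {z : ι → ℂ} (hz : ∀ i, (z i).im ≤ 0)
    {n c : ι} (hnc : n ≠ c) {N : Finset ι} (hcN : c ∉ N)
    (hrow : ∀ a, a ∉ N → a ≠ c → Mz B z n a = 0) {L K : ℝ} (hL : 0 < L)
    (hzc : z c = -(L : ℂ) * Complex.I) (hN : ∀ a ∈ N, (z a).im ≤ -L)
    (hcn : 1 ≤ ‖Mz B z n c‖) (hK : ∑ a ∈ N, ‖Mz B z n a‖ ^ 2 ≤ K) {v : ℝ} (hv : |v| ≤ L) :
    ‖(Mz B z).det‖ ≤ (1 + 2 * K) * ‖(Mz B (update z c (v : ℂ))).det‖ := by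
  set M := Mz B z with hM
  set D := M.det with hD
  set u : ι → ℂ := fun i => M.adjugate i c with hu
  set s : ℝ := ∑ a ∈ N, ‖u a‖ ^ 2 with hs
  have hs0 : 0 ≤ s := Finset.sum_nonneg fun _ _ => sq_nonneg _
  have hK0 : 0 ≤ K := (Finset.sum_nonneg fun _ _ => sq_nonneg _).trans hK
  have hMu : M *ᵥ u = fun i => D * (1 : Matrix ι ι ℂ) i c := by
    ext i
    have h := congrFun (congrFun (mul_adjugate M) i) c
    rw [Matrix.mul_apply] at h
    simp only [Matrix.smul_apply, smul_eq_mul] at h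
    simpa [mulVec, dotProduct, hu] using h
  -- the form
  have h1 : (star u ⬝ᵥ (M *ᵥ u)) = (starRingEnd ℂ) (u c) * D := by
    rw [hMu]
    simp only [dotProduct, Pi.star_apply, Matrix.one_apply]
    rw [Finset.sum_eq_single c]
    · simp
    · intro b _ hb; simp [hb]
    · simp
  have h2 := form_im B z u
  rw [← hM, h1] at h2
  have h3 : ∑ i, (z i).im * ‖u i‖ ^ 2 ≤ -L * (‖u c‖ ^ 2 + s) := by
    have h4 : ∑ i, (z i).im * ‖u i‖ ^ 2 ≤ ∑ i ∈ insert c N, (z i).im * ‖u i‖ ^ 2 := by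
      rw [← Finset.sum_sdiff (Finset.subset_univ (insert c N))]
      have : ∑ i ∈ univ \ insert c N, (z i).im * ‖u i‖ ^ 2 ≤ 0 :=
        Finset.sum_nonpos fun i _ => mul_nonpos_of_nonpos_of_nonneg (hz i) (sq_nonneg _)
      linarith
    refine h4.trans ?_
    rw [Finset.sum_insert hcN, hs, mul_add, Finset.mul_sum, hzc]
    refine add_le_add (by simp) (Finset.sum_le_sum fun a ha => ?_)
    exact mul_le_mul_of_nonneg_right (hN a ha) (sq_nonneg _)
  have h5 := hB u
  have h6 : ((starRingEnd ℂ) (u c) * D).im ≤ -L * (‖u c‖ ^ 2 + s) := by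
    rw [h2]; linarith
  -- row `n`
  have h7 : M n c * u c = -∑ a ∈ N, M n a * u a := by
    have h8 := congrFun hMu n
    simp only [Matrix.one_apply, hnc, if_false, mul_zero] at h8
    have h9 : (M *ᵥ u) n = ∑ a ∈ insert c N, M n a * u a := by
      simp only [mulVec, dotProduct]
      symm
      refine Finset.sum_subset (Finset.subset_univ _) fun a _ ha => ?_
      rw [Finset.mem_insert, not_or] at ha
      rw [hrow a ha.2 ha.1, zero_mul]
    rw [h9, Finset.sum_insert hcN] at h8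
    linear_combination h8
  have h10 : ‖u c‖ ^ 2 ≤ K * s := by
    have h11 : ‖u c‖ ≤ ∑ a ∈ N, ‖M n a‖ * ‖u a‖ := by
      calc ‖u c‖ ≤ ‖M n c‖ * ‖u c‖ := by nlinarith [norm_nonneg (u c)]
        _ = ‖∑ a ∈ N, M n a * u a‖ := by rw [← norm_mul, h7, norm_neg]
        _ ≤ ∑ a ∈ N, ‖M n a * u a‖ := norm_sum_le _ _
        _ = _ := by simp only [norm_mul]
    calc ‖u c‖ ^ 2 ≤ (∑ a ∈ N, ‖M n a‖ * ‖u a‖) ^ 2 := pow_le_pow_left₀ (norm_nonneg _) h11 2
      _ ≤ (∑ a ∈ N, ‖M n a‖ ^ 2) * ∑ a ∈ N, ‖u a‖ ^ 2 := Finset.sum_mul_sq_le_sq_mul_sq _ _ _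
      _ ≤ K * s := mul_le_mul_of_nonneg_right hK hs0
  -- the new determinant
  set D' := (Mz B (update z c (v : ℂ))).det with hD'
  have h12 : D' = D + ((v : ℂ) + L * Complex.I) * u c := by
    rw [hD', det_Mz_update, hzc]
    simp only [hu, ← hM, ← hD]
    ring
  by_cases hα : u c = 0
  · rw [hα, mul_zero, add_zero] at h12
    rw [h12]
    nlinarith [norm_nonneg D]
  have hαp : 0 < ‖u c‖ := norm_pos_iff.mpr hα
  have h13 : ((starRingEnd ℂ) (u c) * D').im ≤ -L * s := by
    have h14 : (starRingEnd ℂ) (u c) * D' = (starRingEnd ℂ) (u c) * D +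
        ((v : ℂ) + L * Complex.I) * ((‖u c‖ ^ 2 : ℝ) : ℂ) := by
      rw [h12, ← Complex.normSq_eq_norm_sq, ← Complex.mul_conj]
      ring
    have h14' : (((v : ℂ) + L * Complex.I) * ((‖u c‖ ^ 2 : ℝ) : ℂ)).im = L * ‖u c‖ ^ 2 := by
      rw [Complex.im_mul_ofReal]
      simp
    rw [h14, Complex.add_im, h14']
    linarith
  have h15 : L * s ≤ ‖u c‖ * ‖D'‖ := by
    have h16 : |((starRingEnd ℂ) (u c) * D').im| ≤ ‖(starRingEnd ℂ) (u c) * D'‖ :=
      Complex.abs_im_le_norm _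
    rw [norm_mul, RCLike.norm_conj] at h16
    have h17 := neg_le_abs ((starRingEnd ℂ) (u c) * D').im
    linarith
  have h18 : L * ‖u c‖ ≤ K * ‖D'‖ := by
    have h19 : (L * ‖u c‖) * ‖u c‖ ≤ (K * ‖D'‖) * ‖u c‖ := by
      calc (L * ‖u c‖) * ‖u c‖ = L * ‖u c‖ ^ 2 := by ring
        _ ≤ L * (K * s) := by gcongr
        _ = K * (L * s) := by ring
        _ ≤ K * (‖u c‖ * ‖D'‖) := by gcongr
        _ = _ := by ring
    exact le_of_mul_le_mul_right h19 hαp
  have h20 : D = D' - ((v : ℂ) + L * Complex.I) * u c := by rw [h12]; ring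
  have h21 : ‖(v : ℂ) + L * Complex.I‖ ≤ 2 * L := by
    refine (norm_add_le _ _).trans ?_
    rw [norm_mul, Complex.norm_I, mul_one, Complex.norm_real, Complex.norm_real,
      Real.norm_eq_abs, Real.norm_eq_abs, abs_of_pos hL]
    linarith
  calc ‖D‖ ≤ ‖D'‖ + ‖(v : ℂ) + L * Complex.I‖ * ‖u c‖ := by
        rw [h20]; exact (norm_sub_le _ _).trans (by rw [norm_mul])
    _ ≤ ‖D'‖ + 2 * L * ‖u c‖ := by gcongr
    _ ≤ (1 + 2 * K) * ‖D'‖ := by nlinarith

/-- **The exceptional event of a site whose right neighbour sees only sites treated before.** -/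
theorem peel_notMem {B : Matrix ι ι ℂ} (hB : DissB B) {Q : Finset ι} {z0 : ι → ℂ}
    (h0 : ∀ i ∉ Q, (z0 i).im ≤ 0) {L K : ℝ} (hL : 0 < L) {x c n : Q} (hcx : c ≠ x) (hnc : n ≠ c)
    (e : Q ≃ Fin Q.card) {N : Finset ι} (hNQ : N ⊆ Q) (hcN : (c : ι) ∉ N)
    (hnN : (n : ι) ∈ N) (hN : ∀ a : Q, (a : ι) ∈ N → a = x ∨ (e a : ℕ) < e c)
    (hrow : ∀ a : ι, a ∉ N → a ≠ c → B n a = 0) (hcn : 1 ≤ ‖B n c‖)
    (hK : ‖-(L : ℂ) * Complex.I + B n n‖ ^ 2 + ∑ a ∈ N.erase n, ‖B n a‖ ^ 2 ≤ K) {ε : ℝ}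
    (hε : ε ≤ 1 / (1 + 2 * K)) {V : Q → ℝ} (hVc : |V c| ≤ L) :
    V ∉ Jset e (detx B Q z0 L x) (fun _ => -(L : ℂ) * Complex.I) ε (e c) := by
  have hK0 : 0 ≤ K := by
    refine le_trans ?_ hK
    exact add_nonneg (sq_nonneg _) (Finset.sum_nonneg fun _ _ => sq_nonneg _)
  set y : Q → ℂ := update (hyb e ((e c : ℕ) + 1) (cx V) fun _ => -(L : ℂ) * Complex.I) x
    (-(L : ℂ) * Complex.I) with hy
  have hyc : y c = -(L : ℂ) * Complex.I := by
    rw [hy, update_of_ne hcx]
    simp [hyb]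
  have hyN : ∀ a : Q, (a : ι) ∈ N → y a = -(L : ℂ) * Complex.I := by
    intro a ha
    by_cases hax : a = x
    · subst hax; simp [hy]
    · rw [hy, update_of_ne hax]
      rcases hN a ha with h | h
      · exact absurd h hax
      · simp only [hyb]
        rw [if_pos (by omega)]
  have hyim : ∀ a : Q, (y a).im ≤ 0 := by
    intro a
    by_cases hax : a = x
    · subst hax; simp [hy, hL.le]
    · rw [hy, update_of_ne hax]
      simp only [hyb]
      split_ifs
      · simp [hL.le]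
      · simp [cx]
  have h1 : update (hyb e (e c : ℕ) (cx V) fun _ => -(L : ℂ) * Complex.I) x
      (-(L : ℂ) * Complex.I) = update y c (V c : ℂ) := by
    rw [hy, hyb_succ e (e c : ℕ) (e c).isLt]
    have h2 : e.symm ⟨(e c : ℕ), (e c).isLt⟩ = c := by simp
    rw [h2]
    ext a
    by_cases hac : a = c
    · subst hac
      rw [update_self, update_of_ne hcx]
      simp [hyb, cx]
    · rw [update_of_ne hac]
      by_cases hax : a = x
      · subst hax; simp
      · rw [update_of_ne hax, update_of_ne hax, update_of_ne hac]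
  set z : ι → ℂ := fil Q z0 y with hz
  have hzQ : ∀ a : Q, z a = y a := fun a => by simp [hz, fil]
  have h3 : ‖(Mz B z).det‖ ≤ (1 + 2 * K) * ‖(Mz B (update z (c : ι) ((V c : ℝ) : ℂ))).det‖ := by
    have hd : ∀ a : ι, a ≠ n → Mz B z n a = B n a := fun a ha => by
      simp [Mz, Matrix.diagonal_apply_ne _ ha.symm]
    have hnc' : (c : ι) ≠ n := fun h => hnc (Subtype.ext h.symm)
    refine peel_step hB (fun i => ?_) (n := (n : ι)) (c := (c : ι)) (fun h => hnc (Subtype.ext h))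
      hcN (fun a ha hac => ?_) hL ?_ (fun a ha => ?_) ?_ ?_ hVc
    · by_cases hi : i ∈ Q
      · have := hzQ ⟨i, hi⟩
        simp only at this
        rw [this]; exact hyim _
      · simpa [hz, fil, hi] using h0 i hi
    · have han : a ≠ n := fun h => ha (h ▸ hnN)
      rw [hd a han]
      exact hrow a ha hac
    · rw [hzQ, hyc]
    · have := hzQ ⟨a, hNQ ha⟩
      simp only at this
      rw [this, hyN ⟨a, hNQ ha⟩ ha]
      simp
    · rw [hd _ hnc']; exact hcn
    · rw [← Finset.add_sum_erase N _ hnN]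
      refine le_trans (le_of_eq ?_) hK
      congr 1
      · have : Mz B z n n = z n + B n n := by simp [Mz]
        rw [this, hzQ, hyN n hnN]
      · refine Finset.sum_congr rfl fun a ha => ?_
        rw [hd a (Finset.ne_of_mem_erase ha)]
  have h4 : detx B Q z0 L x (hyb e ((e c : ℕ) + 1) (cx V) fun _ => -(L : ℂ) * Complex.I) =
      (Mz B z).det := rfl
  have h5 : detx B Q z0 L x (hyb e (e c : ℕ) (cx V) fun _ => -(L : ℂ) * Complex.I) =
      (Mz B (update z (c : ι) ((V c : ℝ) : ℂ))).det := by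
    unfold detx
    rw [h1, fil_update]
  simp only [Jset, Set.mem_ofPred_eq, not_lt]
  rw [h4, h5]
  rcases le_total ε 0 with hε0 | hε0
  · exact (mul_nonpos_of_nonpos_of_nonneg hε0 (norm_nonneg _)).trans (norm_nonneg _)
  · have h6 : ε * (1 + 2 * K) ≤ 1 := by
      rwa [le_div_iff₀ (by positivity)] at hε
    calc ε * ‖(Mz B z).det‖ ≤ ε * ((1 + 2 * K) *
          ‖(Mz B (update z (c : ι) ((V c : ℝ) : ℂ))).det‖) := by gcongr
      _ = (ε * (1 + 2 * K)) * ‖(Mz B (update z (c : ι) ((V c : ℝ) : ℂ))).det‖ := by ring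
      _ ≤ 1 * ‖(Mz B (update z (c : ι) ((V c : ℝ) : ℂ))).det‖ := by gcongr
      _ = _ := one_mul _

/-- an enumeration compatible with a height function -/
theorem exists_order (Q : Finset ι) {α : Type*} [LinearOrder α] (ht : Q → α) :
    ∃ e : Q ≃ Fin Q.card, ∀ a c, ht a < ht c → (e a : ℕ) < e c := by
  set e0 : Q ≃ Fin Q.card := Q.equivFin with he0
  set f : Fin Q.card → α := fun i => ht (e0.symm i) with hf
  set σ := Tuple.sort f with hσ
  have hm : Monotone (f ∘ σ) := Tuple.monotone_sort f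
  refine ⟨e0.trans σ.symm, fun a c h => ?_⟩
  by_contra hlt
  push Not at hlt
  have h1 : (e0.trans σ.symm) c ≤ (e0.trans σ.symm) a := hlt
  have h2 : f (σ (σ.symm (e0 c))) ≤ f (σ (σ.symm (e0 a))) := hm h1
  rw [Equiv.apply_symm_apply, Equiv.apply_symm_apply] at h2
  simp only [hf, Equiv.symm_apply_apply] at h2
  exact absurd h (not_lt.mpr h2)

end P365T1.MAff
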