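import Mathlib

/-!
# Insulated site lemma, step (5): a sink makes the centre non-resonant (P365 T1, ISL)

Pure algebra, numbers only.  `S` finite set of ports, the centre `y` sits at `v = -i`:
* `m z z' = G_zz'`, `p z = G_zy`, `q z = (G F)_z`, `gam = (G F)_y` (any far vector `F`),
* `D z = V_z + i`, `th z = 1 - D z * m z z`, `X z = th z + D z * q z * p z / gam`,
* row `y` of `M G = 1` : `∑ t z' m z' z = (-i - h0) p z`.
With `V_z` replaced by `-i` : `G^[z]_{z'y} = p z' + m z z' * D z * p z / th z`.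
`sink_sum_le` bounds `∑ t z' G^[z]_{z'y}`, `norm_h_le` turns this into a bound for the
self-energy `h^[z]` of the centre, `exists_large` gives `Z ≠ ∅` when `|h|` is not small.
-/

set_option autoImplicit false
set_option linter.unusedSectionVars false
set_option linter.unusedVariables false
set_option linter.style.header false

open Finset
open scoped BigOperators

namespace P365T1.ISL

variable {ι : Type*} [DecidableEq ι]

/-- self-energy from the row equation: `(h - h0) / (-i - h) = s` and `|s| ≤ ε ≤ 1/2` give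
`|h| ≤ 2 (|h0| + ε)`. -/
theorem norm_h_le {h h0 s : ℂ} {ε : ℝ} (hs : h - h0 = s * (-Complex.I - h)) (hε : ‖s‖ ≤ ε)
    (hε2 : ε ≤ 1 / 2) : ‖h‖ ≤ 2 * (‖h0‖ + ε) := by
  have h1 : h * (1 + s) = h0 - s * Complex.I := by linear_combination hs
  have h2 : ‖h‖ * ‖1 + s‖ ≤ ‖h0‖ + ε := by
    rw [← norm_mul, h1]
    refine (norm_sub_le _ _).trans ?_
    rw [norm_mul, Complex.norm_I, mul_one]
    linarith
  have h3 : 1 / 2 ≤ ‖1 + s‖ := by
    have h4 : ‖(1 : ℂ)‖ ≤ ‖1 + s‖ + ‖s‖ := by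
      have := norm_sub_le (1 + s) s
      simpa using this
    rw [norm_one] at h4
    linarith
  have h5 : 0 ≤ ‖h‖ := norm_nonneg _
  nlinarith

/-- if all `|p z| ≤ P` then the self-energy of the centre is small -/
theorem norm_h_le_of_small {S : Finset ι} {t p : ι → ℂ} {h h0 : ℂ} {δ P : ℝ} (hδ : 0 ≤ δ)
    (hrow : h - h0 = (∑ z ∈ S, t z * p z) * (-Complex.I - h))
    (ht : ∀ z ∈ S, ‖t z‖ ≤ δ) (hp : ∀ z ∈ S, ‖p z‖ ≤ P) (hh0 : ‖h0‖ ≤ δ)
    (hsm : S.card * (δ * P) ≤ 1 / 2) : ‖h‖ ≤ 2 * (δ + S.card * (δ * P)) := by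
  have h1 : ‖∑ z ∈ S, t z * p z‖ ≤ S.card * (δ * P) := by
    refine (norm_sum_le _ _).trans ?_
    have : ∀ z ∈ S, ‖t z * p z‖ ≤ δ * P := by
      intro z hz
      rw [norm_mul]
      exact mul_le_mul (ht z hz) (hp z hz) (norm_nonneg _) hδ
    refine (Finset.sum_le_sum this).trans ?_
    rw [Finset.sum_const, nsmul_eq_mul]
  have h2 := norm_h_le hrow h1 hsm
  linarith

/-- `Z` is not empty when the centre is resonant: some `|p z| > P` -/
theorem exists_large {S : Finset ι} {t p : ι → ℂ} {h h0 : ℂ} {δ P η : ℝ} (hδ : 0 ≤ δ)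
    (hrow : h - h0 = (∑ z ∈ S, t z * p z) * (-Complex.I - h))
    (ht : ∀ z ∈ S, ‖t z‖ ≤ δ) (hh0 : ‖h0‖ ≤ δ)
    (hsm : S.card * (δ * P) ≤ 1 / 2) (hη : 2 * (δ + S.card * (δ * P)) < η) (hbig : η ≤ ‖h‖) :
    ∃ z ∈ S, P < ‖p z‖ := by
  by_contra hcon
  push Not at hcon
  have := norm_h_le_of_small hδ hrow ht hcon hh0 hsm
  linarith

/-- the identity for `z' ∈ Z`: `G^[z]_{z'y} = H_zz' + κ m_zz'` -/
theorem gz_eq {m p' p D th q gam X : ℂ} (hth : th ≠ 0) (hq : q ≠ 0) (hgam : gam ≠ 0)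
    (hX : X = th + D * q * p / gam) :
    p' + m * D * p / th = (p' - gam * m / q) + gam / q * (X / th) * m := by
  subst hX
  field_simp
  ring

/-- `G^[z]_{zy} = p_z / th_z` -/
theorem gz_self {m p D th : ℂ} (hth : th ≠ 0) (hdef : th = 1 - D * m) :
    p + m * D * p / th = p / th := by
  field_simp
  rw [hdef]
  ring

/-- `|gam / q| ≤ 2 |D| |p| / |th|` when `|X| ≤ |th| / 2` -/
theorem norm_gam_div_q_le {p D th q gam X : ℂ} (hq : q ≠ 0) (hgam : gam ≠ 0)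
    (hX : X = th + D * q * p / gam) (hXs : ‖X‖ ≤ ‖th‖ / 2) :
    ‖gam / q‖ * ‖th‖ ≤ 2 * (‖D‖ * ‖p‖) := by
  have h1 : ‖th‖ / 2 ≤ ‖D * q * p / gam‖ := by
    have h2 : th = X - D * q * p / gam := by rw [hX]; ring
    have h3 : ‖th‖ ≤ ‖X‖ + ‖D * q * p / gam‖ := by
      calc ‖th‖ = ‖X - D * q * p / gam‖ := by rw [← h2]
        _ ≤ _ := norm_sub_le _ _
    linarith
  have h4 : ‖gam / q‖ * ‖D * q * p / gam‖ = ‖D‖ * ‖p‖ := by
    rw [← norm_mul, ← norm_mul]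
    congr 1
    field_simp
  have h5 : 0 ≤ ‖gam / q‖ := norm_nonneg _
  nlinarith

/-- **sink sum**: explicit bound of `∑ t z' G^[z]_{z'y}` at a sink `z` -/
theorem sink_sum_le {S Z : Finset ι} (hZS : Z ⊆ S) {m : ι → ι → ℂ} {p q t D th X : ι → ℂ}
    {gam h0 : ℂ} {z : ι} (hz : z ∈ Z) {δ K B B2 B3 : ℝ} (hδ : 0 ≤ δ) (hB : 0 ≤ B) (hB2 : 0 ≤ B2)
    (hB3 : 0 ≤ B3)
    (hgam : gam ≠ 0) (hq : q z ≠ 0) (hth : th z ≠ 0)
    (hthdef : th z = 1 - D z * m z z) (hX : X z = th z + D z * q z * p z / gam)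
    (hrow : ∑ z' ∈ S, t z' * m z z' = (-Complex.I - h0) * p z)
    (ht : ∀ z' ∈ S, ‖t z'‖ ≤ δ) (hh0 : ‖h0‖ ≤ δ)
    (hsink : ∀ z' ∈ Z, z' ≠ z → ‖p z' - gam * m z z' / q z‖ ≤ B)
    (hout : ∀ z' ∈ S, z' ∉ Z → ‖p z' + m z z' * D z * p z / th z‖ ≤ B2)
    (hm : ∀ z' ∈ S, z' ∉ Z → ‖m z z'‖ ≤ B3)
    (hK : ‖gam / q z * (X z / th z)‖ ≤ K) :
    ‖∑ z' ∈ S, t z' * (p z' + m z z' * D z * p z / th z)‖ ≤
      δ * (‖p z‖ / ‖th z‖) + S.card * (δ * B) + S.card * (δ * B2) +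
        K * ((1 + δ) * ‖p z‖ + δ * ‖m z z‖ + S.card * (δ * B3)) := by
  have hzS : z ∈ S := hZS hz
  set κ : ℂ := gam / q z * (X z / th z) with hκ
  have hκ0 : 0 ≤ K := le_trans (norm_nonneg _) hK
  -- split of the sum
  have hsplit : ∀ F : ι → ℂ, ∑ z' ∈ S, F z' =
      F z + (∑ z' ∈ Z.erase z, F z' + ∑ z' ∈ S \ Z, F z') := by
    intro F
    rw [← Finset.sum_sdiff hZS, ← Finset.add_sum_erase Z F hz]
    ring
  have h1 : ∑ z' ∈ S, t z' * (p z' + m z z' * D z * p z / th z) =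
      t z * (p z / th z) +
        ((∑ z' ∈ Z.erase z, t z' * (p z' - gam * m z z' / q z)) +
          κ * (∑ z' ∈ Z.erase z, t z' * m z z') +
        ∑ z' ∈ S \ Z, t z' * (p z' + m z z' * D z * p z / th z)) := by
    rw [hsplit, gz_self hth hthdef]
    congr 2
    rw [Finset.mul_sum, ← Finset.sum_add_distrib]
    refine Finset.sum_congr rfl fun z' hz' => ?_
    rw [gz_eq (m := m z z') (p' := p z') hth hq hgam hX, ← hκ]
    ring
  have h2 : ∑ z' ∈ Z.erase z, t z' * m z z' =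
      (-Complex.I - h0) * p z - t z * m z z - ∑ z' ∈ S \ Z, t z' * m z z' := by
    rw [← hrow, hsplit]
    ring
  have hsum : ∀ (T : Finset ι) (F : ι → ℂ) (b : ℝ), T ⊆ S → 0 ≤ b → (∀ z' ∈ T, ‖F z'‖ ≤ b) →
      ‖∑ z' ∈ T, t z' * F z'‖ ≤ S.card * (δ * b) := by
    intro T F b hT hb hF
    refine (norm_sum_le _ _).trans ?_
    have h3 : ∀ z' ∈ T, ‖t z' * F z'‖ ≤ δ * b := by
      intro z' hz'
      rw [norm_mul]
      exact mul_le_mul (ht z' (hT hz')) (hF z' hz') (norm_nonneg _) hδ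
    refine (Finset.sum_le_sum h3).trans ?_
    rw [Finset.sum_const, nsmul_eq_mul]
    have h4 : (T.card : ℝ) ≤ S.card := by exact_mod_cast Finset.card_le_card hT
    exact mul_le_mul_of_nonneg_right h4 (by positivity)
  have a1 : ‖t z * (p z / th z)‖ ≤ δ * (‖p z‖ / ‖th z‖) := by
    rw [norm_mul, norm_div]
    exact mul_le_mul_of_nonneg_right (ht z hzS) (by positivity)
  have a2 : ‖∑ z' ∈ Z.erase z, t z' * (p z' - gam * m z z' / q z)‖ ≤ S.card * (δ * B) :=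
    hsum _ _ _ ((Finset.erase_subset _ _).trans hZS) hB
      (fun z' hz' => hsink z' (Finset.mem_of_mem_erase hz') (Finset.ne_of_mem_erase hz'))
  have a3 : ‖∑ z' ∈ S \ Z, t z' * (p z' + m z z' * D z * p z / th z)‖ ≤ S.card * (δ * B2) :=
    hsum _ _ _ Finset.sdiff_subset hB2
      (fun z' hz' => hout z' (Finset.mem_sdiff.1 hz').1 (Finset.mem_sdiff.1 hz').2)
  have a4 : ‖∑ z' ∈ S \ Z, t z' * m z z'‖ ≤ S.card * (δ * B3) :=
    hsum _ _ _ Finset.sdiff_subset hB3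
      (fun z' hz' => hm z' (Finset.mem_sdiff.1 hz').1 (Finset.mem_sdiff.1 hz').2)
  have a5 : ‖(-Complex.I - h0) * p z‖ ≤ (1 + δ) * ‖p z‖ := by
    rw [norm_mul]
    refine mul_le_mul_of_nonneg_right ?_ (norm_nonneg _)
    refine (norm_sub_le _ _).trans ?_
    rw [norm_neg, Complex.norm_I]
    linarith
  have a6 : ‖t z * m z z‖ ≤ δ * ‖m z z‖ := by
    rw [norm_mul]
    exact mul_le_mul_of_nonneg_right (ht z hzS) (norm_nonneg _)
  have a7 : ‖∑ z' ∈ Z.erase z, t z' * m z z'‖ ≤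
      (1 + δ) * ‖p z‖ + δ * ‖m z z‖ + S.card * (δ * B3) := by
    rw [h2]
    refine (norm_sub_le _ _).trans ?_
    refine add_le_add ((norm_sub_le _ _).trans (add_le_add a5 a6)) a4
  have a8 : ‖κ * ∑ z' ∈ Z.erase z, t z' * m z z'‖ ≤
      K * ((1 + δ) * ‖p z‖ + δ * ‖m z z‖ + S.card * (δ * B3)) := by
    rw [norm_mul]
    exact mul_le_mul hK a7 (norm_nonneg _) hκ0
  rw [h1]
  refine (norm_add_le _ _).trans ?_
  have b1 := norm_add_le
    ((∑ z' ∈ Z.erase z, t z' * (p z' - gam * m z z' / q z)) +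
          κ * (∑ z' ∈ Z.erase z, t z' * m z z'))
    (∑ z' ∈ S \ Z, t z' * (p z' + m z z' * D z * p z / th z))
  have b2 := norm_add_le (∑ z' ∈ Z.erase z, t z' * (p z' - gam * m z z' / q z))
    (κ * (∑ z' ∈ Z.erase z, t z' * m z z'))
  linarith

end P365T1.ISL
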